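import Vale.Agent.P207I27.St

/-! P207: the short statement follows from the long one. -/

set_option linter.unusedSectionVars false

open scoped Manifold ContDiff ENNReal Topology
open MeasureTheory Filter VectorField

noncomputable section

namespace Vale.Agent.P207S

open Vale.Agent.P255 (RMetric innerAt)
open Vale.Agent.P207F (UT IsRiemVol)
open Vale.Agent.P207L (Tan Fld Vec Conn vel nab curv sec Sph RotInv IsLiou IsCover IsCoverRate hTop)
open Vale.Agent.P108L (IsPartition IsRate hKS)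

variable {E : Type} [NormedAddCommGroup E] [NormedSpace ℝ E] {M : Type} [TopologicalSpace M]
  [ChartedSpace E M] [IsManifold 𝓘(ℝ, E) ∞ M] {g : RMetric E M} {D : Conn E M}

theorem lc_iff : IsLeviCivita g D ↔ P207L.IsLeviCivita g D :=
  ⟨fun h => ⟨h.1, h.2.1, h.2.2⟩, fun h => ⟨h.smooth, h.torsion, h.metric⟩⟩

theorem neg_iff : NegCurved g D ↔ P207L.NegCurved g D := Iff.rfl

theorem par_iff : Parallel D ↔ P207L.Parallel D := Iff.rfl

theorem hasCov_iff {γ : ℝ → M} {V : (t : ℝ) → Tan E (γ t)} {t : ℝ} {w : Tan E (γ t)} :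
    HasCov D γ V t w ↔ P207L.HasCov D γ V t w := by
  refine exists₃_congr fun k f Y => and_congr_right fun _ => and_congr_right fun _ => ?_
  rw [Finset.sum_add_distrib]
  exact Iff.rfl

theorem geo_iff (γ : ℝ → M) : IsGeodesic D γ ↔ P207L.IsGeodesic D γ :=
  and_congr_right fun _ => forall_congr' fun _ => hasCov_iff

theorem flow_iff (φ : ℝ → UT g → UT g) : IsFlow g D φ ↔ P207L.IsFlow g D φ :=
  forall_congr' fun _ => and_congr_right fun _ => and_congr_left fun _ => geo_iff _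

theorem sound_of (h : ∀ D', P207L.IsLeviCivita g D' → ∀ Y : Vec E M, D' Y = D Y)
    (hs : P207L.Sound D) : Sound g D :=
  ⟨fun D' hD' Y x v => congrArg (fun A => A x v) (h D' (lc_iff.1 hD') Y), hs.extend, hs.tensor,
    fun γ V t w w' hγ h1 h2 => hs.unique γ V t w w' hγ (hasCov_iff.1 h1) (hasCov_iff.1 h2)⟩

variable [MeasureSpace E] [MeasurableSpace M] {n : ℕ}

theorem katok_of (b : Fin n → E) (g : RMetric E M)
    (h : (∃ D, P207L.IsLeviCivita g D) ∧ ∀ D, P207L.IsLeviCivita g D →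
      (∀ D', P207L.IsLeviCivita g D' → ∀ Y : Vec E M, D' Y = D Y) ∧ P207L.Sound D ∧
      ∃ (φ : Flow ℝ (UT g)) (μ : Measure M) (σ : (x : M) → Measure (Sph g x))
        (m : Measure (UT g)),
        (∀ φ', P207L.IsFlow g D φ' ↔ φ' = φ.toFun) ∧ (∀ μ', IsRiemVol b g μ' ↔ μ' = μ) ∧
        (∀ x σ', RotInv g x σ' ↔ σ' = σ x) ∧ (∀ m', IsLiou g μ σ m' ↔ m' = m) ∧
        (∀ t, MeasurePreserving (φ t) m m) ∧
        (∀ (d : ℕ) (P : Fin d → Set (UT g)), IsPartition P → ∃ h, IsRate m (φ 1) P h) ∧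
        (∀ (ι : Type) (U : ι → Set (UT g)), IsCover U → ∃ h, IsCoverRate (φ 1) U h) ∧
        (P207L.NegCurved g D → hKS m (φ 1) ≤ hTop (φ 1) ∧
          (hKS m (φ 1) = hTop (φ 1) ↔ P207L.Parallel D))) : Katok b g := by
  obtain ⟨⟨D₀, h₀⟩, h⟩ := h
  refine ⟨⟨D₀, lc_iff.2 h₀⟩, fun D hD => ?_⟩
  obtain ⟨h1, h2, φ, μ, σ, m, h3, h4, h5, h6, h7, h8, h9, h10⟩ := h D (lc_iff.1 hD)
  exact ⟨sound_of h1 h2, φ, μ, σ, m, ⟨fun φ' => (flow_iff φ').trans (h3 φ'), h4, h5, h6, h7⟩,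
    ⟨h8, h9⟩, h10⟩

end Vale.Agent.P207S
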