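import Vale.Agent.P207I27.Defs
import Vale.Agent.P207.BlkD1
import Vale.Agent.P211W98.LC

/-! Vector fields and the Levi-Civita connection in a chart. -/

set_option maxSynthPendingDepth 3
set_option linter.unusedSectionVars false

open scoped Manifold ContDiff Topology
open Bundle Filter VectorField IsManifold

noncomputable section

namespace Vale.Agent.P207I

open Vale.Agent.P255 Vale.Agent.P211Z

variable {E : Type} [NormedAddCommGroup E] [NormedSpace ℝ E] [FiniteDimensional ℝ E]
  {M : Type} [TopologicalSpace M] [ChartedSpace E M] [IsManifold 𝓘(ℝ, E) ∞ M]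

variable (E) in
/-- the differential of the chart -/
def Dc (a x : M) : Tan E x →L[ℝ] E := mfderiv 𝓘(ℝ, E) 𝓘(ℝ, E) (chartAt E a) x

variable (E) in
/-- the differential of the inverse of the chart -/
def Sc (a : M) (u : E) : E →L[ℝ] E := mfderiv 𝓘(ℝ, E) 𝓘(ℝ, E) (chartAt E a).symm u

/-- a vector field in the chart -/
def rep (a : M) (Y : (y : M) → Tan E y) (u : E) : E :=
  Dc E a ((chartAt E a).symm u) (Y ((chartAt E a).symm u))

variable {a x : M} {u : E}

theorem mdc (a : M) : (chartAt E a).MDifferentiable 𝓘(ℝ, E) 𝓘(ℝ, E) := mdifferentiable_chart a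

theorem S_D (hx : x ∈ (chartAt E a).source) (v : Tan E x) :
    Sc E a (chartAt E a x) (Dc E a x v) = v :=
  congrArg (fun T => T v) ((mdc a).symm_comp_deriv hx)

theorem D_S' (hu : u ∈ (chartAt E a).target) (v : E) :
    Dc E a ((chartAt E a).symm u) (Sc E a u v) = v :=
  congrArg (fun T => T v) ((mdc a).comp_symm_deriv hu)

theorem D_S (hx : x ∈ (chartAt E a).source) (v : E) :
    Dc E a x (Sc E a (chartAt E a x) v) = v :=
  (congrArg (fun y => Dc E a y (Sc E a (chartAt E a x) v)) ((chartAt E a).left_inv hx)).symm.trans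
    (D_S' ((chartAt E a).map_source hx) v)

theorem D_inj (hx : x ∈ (chartAt E a).source) {v w : Tan E x} (h : Dc E a x v = Dc E a x w) :
    v = w :=
  (S_D hx v).symm.trans ((congrArg (Sc E a (chartAt E a x)) h).trans (S_D hx w))

theorem D_surj (hx : x ∈ (chartAt E a).source) (v : E) : ∃ w : Tan E x, Dc E a x w = v :=
  ⟨Sc E a (chartAt E a x) v, D_S hx v⟩

theorem rep_eq (hx : x ∈ (chartAt E a).source) (Y : (y : M) → Tan E y) :
    rep a Y (chartAt E a x) = Dc E a x (Y x) :=
  congrArg (fun y => Dc E a y (Y y)) ((chartAt E a).left_inv hx)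

theorem ld (hx : x ∈ (chartAt E a).source) :
    IsLocalDiffeomorphAt 𝓘(ℝ, E) 𝓘(ℝ, E) ∞ (chartAt E a) x :=
  ⟨⟨(chartAt E a).toPartialEquiv, (chartAt E a).open_source, (chartAt E a).open_target,
    contMDiffOn_chart, contMDiffOn_chart_symm⟩, hx, fun _ _ => rfl⟩

theorem lds (hu : u ∈ (chartAt E a).target) :
    IsLocalDiffeomorphAt 𝓘(ℝ, E) 𝓘(ℝ, E) ∞ (chartAt E a).symm u :=
  ⟨⟨(chartAt E a).toPartialEquiv.symm, (chartAt E a).open_target, (chartAt E a).open_source,
    contMDiffOn_chart_symm, contMDiffOn_chart⟩, hu, fun _ _ => rfl⟩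

theorem rep_pull (hu : u ∈ (chartAt E a).target) (Y : (y : M) → Tan E y) :
    rep a Y u = pull (chartAt E a).symm Y u := by
  have h : Sc E a u (pull (chartAt E a).symm Y u) = Y ((chartAt E a).symm u) := dm_pull (lds hu) Y
  exact (congrArg (Dc E a ((chartAt E a).symm u)) h).symm.trans (D_S' hu _)

theorem rep_pull' (hu : u ∈ (chartAt E a).target) (Y : (y : M) → Tan E y) :
    rep a Y =ᶠ[𝓝 u] pull (chartAt E a).symm Y := by
  filter_upwards [(chartAt E a).open_target.mem_nhds hu] with p hp using rep_pull hp Y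

theorem cd_rep (hu : u ∈ (chartAt E a).target) (Y : Vec E M) : ContDiffAt ℝ ∞ (rep a Y) u := by
  have h : Sm (pull (chartAt E a).symm Y) u := Sm.pull (lds hu) (Y.contMDiff _)
  exact (contMDiffAt_vectorSpace_iff_contDiffAt.1 h).congr_of_eventuallyEq (rep_pull' hu Y)

theorem hd_rep (hu : u ∈ (chartAt E a).target) (Y : Vec E M) :
    HasFDerivAt (rep a Y) (fderiv ℝ (rep a Y) u) u :=
  ((cd_rep hu Y).differentiableAt (by simp)).hasFDerivAt

theorem rep_ev (hu : u ∈ (chartAt E a).target) {Y : (y : M) → Tan E y} {w : E → E}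
    (h : ∀ y ∈ (chartAt E a).source, Dc E a y (Y y) = w (chartAt E a y)) : rep a Y =ᶠ[𝓝 u] w := by
  filter_upwards [(chartAt E a).open_target.mem_nhds hu] with p hp
  have h1 := h _ ((chartAt E a).map_target hp)
  rwa [(chartAt E a).right_inv hp] at h1

theorem D_bracket (hx : x ∈ (chartAt E a).source) (X Y : Vec E M) :
    Dc E a x (mlieBracket 𝓘(ℝ, E) X Y x) =
      fderiv ℝ (rep a Y) (chartAt E a x) (Dc E a x (X x))
        - fderiv ℝ (rep a X) (chartAt E a x) (Dc E a x (Y x)) := by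
  have hu := (chartAt E a).map_source hx
  rw [← rep_eq hx, ← rep_eq hx, ← rep_eq hx, rep_pull hu, rep_pull hu, rep_pull hu,
    (rep_pull' hu X).fderiv_eq, (rep_pull' hu Y).fderiv_eq,
    ← pull_bracket (lds hu) (P211.VF.mdiff X _) (P211.VF.mdiff Y _),
    ← mlieBracketWithin_univ, mlieBracketWithin_eq_lieBracketWithin]
  exact congrFun (lieBracketWithin_univ (𝕜 := ℝ) (E := E)) _

theorem d_fun (hx : x ∈ (chartAt E a).source) {f : M → ℝ} {F : E → ℝ} {L : E →L[ℝ] ℝ}
    (hF : HasFDerivAt F L (chartAt E a x)) (h : ∀ y ∈ (chartAt E a).source, f y = F (chartAt E a y))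
    (v : Tan E x) : mvfderiv 𝓘(ℝ, E) f x v = L (Dc E a x v) := by
  have h1 : HasMFDerivAt 𝓘(ℝ, E) 𝓘(ℝ) (F ∘ chartAt E a) x (L.comp (Dc E a x)) :=
    hF.hasMFDerivAt.comp x ((mdc a).mdifferentiableAt hx).hasMFDerivAt
  have h2 : HasMFDerivAt 𝓘(ℝ, E) 𝓘(ℝ) f x (L.comp (Dc E a x)) := by
    refine h1.congr_of_eventuallyEq ?_
    filter_upwards [(chartAt E a).open_source.mem_nhds hx] with y hy using h y hy
  unfold mvfderiv
  rw [h2.mfderiv]
  rfl

variable {g : RMetric E M}

theorem met (g : RMetric E M) (a : M) : IsMetricOn (coefL g a) (chartAt E a).target :=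
  (toMetric g).isMetricOn a

theorem G_eq (hx : x ∈ (chartAt E a).source) (v w : Tan E x) :
    coefL g a (chartAt E a x) (Dc E a x v) (Dc E a x w) = innerAt g x v w := by
  have h : ∀ y, y = x → ∀ p q : E, innerAt g y p q = innerAt g x p q := by
    rintro y rfl p q
    rfl
  exact (h _ ((chartAt E a).left_inv hx) _ _).trans
    (congrArg₂ (fun p q : E => innerAt g x p q) (S_D hx v) (S_D hx w))

variable {cov : Conn E M}

/-- the defect of the formula for the connection -/
def dfc (g : RMetric E M) (cov : Conn E M) (a x : M) (v : Tan E x) (Y : Vec E M) : E :=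
  Dc E a x (nab cov v Y) - (fderiv ℝ (rep a Y) (chartAt E a x) (Dc E a x v)
    + chrisB (coefL g a) (chartAt E a x) (Dc E a x v) (Dc E a x (Y x)))

theorem dfc_symm (h : IsLeviCivita g cov) (hx : x ∈ (chartAt E a).source) (X Y : Vec E M) :
    dfc g cov a x (X x) Y = dfc g cov a x (Y x) X := by
  have h1 := D_bracket hx X Y
  rw [← h.torsion, map_sub] at h1
  unfold dfc
  rw [chrisB_apply, chrisB_apply, (met g a).chris_symm ((chartAt E a).map_source hx),
    sub_eq_iff_eq_add.1 h1]
  abel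

theorem dfc_skew (h : IsLeviCivita g cov) (hx : x ∈ (chartAt E a).source) (v : Tan E x)
    (Y Z : Vec E M) : coefL g a (chartAt E a x) (dfc g cov a x v Y) (Dc E a x (Z x))
      = -coefL g a (chartAt E a x) (dfc g cov a x v Z) (Dc E a x (Y x)) := by
  have hu := (chartAt E a).map_source hx
  have hm := met g a
  have h1 := h.metric Y Z x v
  have h2 := ((hm.differentiableAt hu).hasFDerivAt.clm_apply (hd_rep hu Y)).clm_apply (hd_rep hu Z)
  rw [d_fun hx h2 (fun y hy => by rw [rep_eq hy, rep_eq hy, G_eq hy]), ← G_eq hx, ← G_eq hx] at h1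
  simp only [add_apply, ContinuousLinearMap.comp_apply,
    ContinuousLinearMap.flip_apply, rep_eq hx] at h1
  have h3 := hm.chris_compat hu (Dc E a x v) (Dc E a x (Y x)) (Dc E a x (Z x))
  unfold dfc
  simp only [map_sub, map_add, sub_apply, add_apply,
    chrisB_apply]
  rw [hm.symm _ hu (Dc E a x (Y x))] at h1 h3
  rw [hm.symm _ hu (Dc E a x (Y x))] at h1
  linarith

variable [T2Space M]

theorem ext_vec (x : M) (v : Tan E x) : ∃ X : Vec E M, X x = v := P211.exists_ext x v

theorem ext_chart (hx : x ∈ (chartAt E a).source) (v : E) :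
    ∃ X : Vec E M, Dc E a x (X x) = v := by
  obtain ⟨w, rfl⟩ := D_surj hx v
  obtain ⟨X, rfl⟩ := ext_vec x w
  exact ⟨X, rfl⟩

/-- the connection in a chart -/
theorem nab_chart (h : IsLeviCivita g cov) (hx : x ∈ (chartAt E a).source) (v : Tan E x)
    (Y : Vec E M) : Dc E a x (nab cov v Y) = fderiv ℝ (rep a Y) (chartAt E a x) (Dc E a x v)
      + chrisB (coefL g a) (chartAt E a x) (Dc E a x v) (Dc E a x (Y x)) := by
  obtain ⟨X, rfl⟩ := ext_vec x v
  have hu := (chartAt E a).map_source hx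
  refine sub_eq_zero.1 ((met g a).ext_of hu (v := dfc g cov a x (X x) Y) fun z => ?_)
  obtain ⟨Z, rfl⟩ := ext_chart hx z
  have h1 := dfc_skew h hx (X x) Y Z
  have h2 := dfc_skew h hx (Y x) Z X
  have h3 := dfc_skew h hx (Z x) X Y
  rw [dfc_symm h hx X Z] at h1
  rw [dfc_symm h hx Y X, dfc_symm h hx Y Z] at h2
  have h4 := dfc_skew h hx (Z x) Y X
  rw [map_zero, zero_apply]
  linarith

theorem exists_lc (g : RMetric E M) : ∃ cov : Conn E M, IsLeviCivita g cov := by
  let : RiemannianBundle fun p : M => TangentSpace 𝓘(ℝ, E) p := ⟨g.toRiemannianMetric⟩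
  obtain ⟨cov, h⟩ := P211W.exists_lc (E := E) (M := M)
  refine ⟨cov, fun X Y => ⟨P211.nabVF cov h.smooth X Y, fun _ => rfl⟩, fun X Y x =>
    (CovariantDerivative.torsion_eq_zero_iff cov).1 h.torsion (P211.VF.mdiff X x)
      (P211.VF.mdiff Y x), fun Y Z x v => ?_⟩
  obtain ⟨X, rfl⟩ := ext_vec x v
  exact h.metric.mvfderiv_inner_eq X (P211.VF.mdiff Y x) (P211.VF.mdiff Z x)

theorem lc_unique {cov' : Conn E M} (h : IsLeviCivita g cov) (h' : IsLeviCivita g cov')
    (Y : Vec E M) (x : M) (v : Tan E x) : nab cov v Y = nab cov' v Y :=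
  D_inj (mem_chart_source E x)
    ((nab_chart h (mem_chart_source E x) v Y).trans (nab_chart h' (mem_chart_source E x) v Y).symm)

end Vale.Agent.P207I
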