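import Vale.Agent.P207I27.Chart

/-! The curvature tensor of the Levi-Civita connection in a chart. -/

set_option maxSynthPendingDepth 3
set_option linter.unusedSectionVars false

open scoped Manifold ContDiff Topology
open Bundle Filter VectorField IsManifold

noncomputable section

namespace Vale.Agent.P207I

open Vale.Agent.P255 Vale.Agent.P211Z Vale.Agent.P207.D1

variable {E : Type} [NormedAddCommGroup E] [NormedSpace ℝ E] [FiniteDimensional ℝ E]

section calc0

variable {G : E → E →L[ℝ] E →L[ℝ] ℝ} {U : Set E} {u : E} {X Y Z : E → E}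

theorem hd_of (h : ContDiffAt ℝ ∞ X u) : HasFDerivAt X (fderiv ℝ X u) u :=
  (h.differentiableAt (by simp)).hasFDerivAt

theorem d_nab (hm : IsMetricOn G U) (hu : u ∈ U) (hY : ContDiffAt ℝ ∞ Y u)
    (hZ : ContDiffAt ℝ ∞ Z u) (v : E) :
    fderiv ℝ (fun p => fderiv ℝ Z p (Y p) + chrisB G p (Y p) (Z p)) u v =
      fderiv ℝ (fderiv ℝ Z) u v (Y u) + fderiv ℝ Z u (fderiv ℝ Y u v)
        + (fderiv ℝ (chrisB G) u v (Y u) (Z u) + chrisB G u (fderiv ℝ Y u v) (Z u)
          + chrisB G u (Y u) (fderiv ℝ Z u v)) := by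
  have h2 : HasFDerivAt (fderiv ℝ Z) (fderiv ℝ (fderiv ℝ Z) u) u :=
    ((hZ.fderiv_right (m := ∞) (by simp)).differentiableAt (by simp)).hasFDerivAt
  have h3 := (h2.clm_apply (hd_of hY)).fun_add
    (((hm.differentiableAt_chrisB hu).hasFDerivAt.clm_apply (hd_of hY)).clm_apply (hd_of hZ))
  rw [h3.fderiv]
  simp only [add_apply, ContinuousLinearMap.comp_apply, ContinuousLinearMap.flip_apply]
  abel

theorem curv_calc (hm : IsMetricOn G U) (hu : u ∈ U) (hX : ContDiffAt ℝ ∞ X u)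
    (hY : ContDiffAt ℝ ∞ Y u) (hZ : ContDiffAt ℝ ∞ Z u) :
    (fderiv ℝ (fun p => fderiv ℝ Z p (Y p) + chrisB G p (Y p) (Z p)) u (X u)
        + chrisB G u (X u) (fderiv ℝ Z u (Y u) + chrisB G u (Y u) (Z u)))
      - (fderiv ℝ (fun p => fderiv ℝ Z p (X p) + chrisB G p (X p) (Z p)) u (Y u)
        + chrisB G u (Y u) (fderiv ℝ Z u (X u) + chrisB G u (X u) (Z u)))
      - (fderiv ℝ Z u (fderiv ℝ Y u (X u) - fderiv ℝ X u (Y u))
        + chrisB G u (fderiv ℝ Y u (X u) - fderiv ℝ X u (Y u)) (Z u))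
      = curvT G u (X u) (Y u) (Z u) := by
  rw [d_nab hm hu hY hZ, d_nab hm hu hX hZ, curvT_apply hm hu, hm.curv_eq hu,
    (hZ.isSymmSndFDerivAt (by simp only [minSmoothness_of_isRCLikeNormedField]; norm_cast)).eq (X u) (Y u)]
  simp only [map_sub, map_add, sub_apply]
  abel

theorem d_curv (hm : IsMetricOn G U) (hu : u ∈ U) (hX : ContDiffAt ℝ ∞ X u)
    (hY : ContDiffAt ℝ ∞ Y u) (hZ : ContDiffAt ℝ ∞ Z u) (v : E) :
    fderiv ℝ (fun p => curvT G p (X p) (Y p) (Z p)) u v =
      fderiv ℝ (curvT G) u v (X u) (Y u) (Z u) + curvT G u (fderiv ℝ X u v) (Y u) (Z u)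
        + curvT G u (X u) (fderiv ℝ Y u v) (Z u) + curvT G u (X u) (Y u) (fderiv ℝ Z u v) := by
  have h2 := ((contDiffAt_curvT hm hu).differentiableAt (by simp)).hasFDerivAt
  rw [(((h2.clm_apply (hd_of hX)).clm_apply (hd_of hY)).clm_apply (hd_of hZ)).fderiv]
  simp only [add_apply, ContinuousLinearMap.comp_apply, ContinuousLinearMap.flip_apply]
  abel

end calc0

variable {M : Type} [TopologicalSpace M] [ChartedSpace E M] [IsManifold 𝓘(ℝ, E) ∞ M] [T2Space M]
  {a x : M} {u : E} {g : RMetric E M} {cov : Conn E M} {R : Tens E M}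

theorem nab_nab (h : IsLeviCivita g cov) (hx : x ∈ (chartAt E a).source) (v : Tan E x)
    (Y Z : Vec E M) : Dc E a x (nab cov v fun y => nab cov (Y y) Z) =
      fderiv ℝ (fun p => fderiv ℝ (rep a Z) p (rep a Y p)
        + chrisB (coefL g a) p (rep a Y p) (rep a Z p)) (chartAt E a x) (Dc E a x v)
      + chrisB (coefL g a) (chartAt E a x) (Dc E a x v)
        (fderiv ℝ (rep a Z) (chartAt E a x) (rep a Y (chartAt E a x))
          + chrisB (coefL g a) (chartAt E a x) (rep a Y (chartAt E a x))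
            (rep a Z (chartAt E a x))) := by
  obtain ⟨W, hW⟩ := h.smooth Y Z
  have h1 : ∀ y ∈ (chartAt E a).source, Dc E a y (W y) =
      (fun p => fderiv ℝ (rep a Z) p (rep a Y p) + chrisB (coefL g a) p (rep a Y p) (rep a Z p))
        (chartAt E a y) := fun y hy => by
    rw [hW, nab_chart h hy, ← rep_eq hy, ← rep_eq hy]
  have h2 : rep a W =ᶠ[𝓝 (chartAt E a x)] fun p => fderiv ℝ (rep a Z) p (rep a Y p)
      + chrisB (coefL g a) p (rep a Y p) (rep a Z p) := rep_ev ((chartAt E a).map_source hx) h1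
  rw [← funext hW, nab_chart h hx, h2.fderiv_eq, h1 x hx]

theorem curv_chart (h : IsLeviCivita g cov) (hx : x ∈ (chartAt E a).source) (X Y Z : Vec E M) :
    Dc E a x (nab cov (X x) (fun y => nab cov (Y y) Z) - nab cov (Y x) (fun y => nab cov (X y) Z)
      - nab cov (mlieBracket 𝓘(ℝ, E) X Y x) Z) = curvT (coefL g a) (chartAt E a x)
        (Dc E a x (X x)) (Dc E a x (Y x)) (Dc E a x (Z x)) := by
  have hu := (chartAt E a).map_source hx
  rw [map_sub, map_sub, nab_nab h hx, nab_nab h hx, nab_chart h hx, D_bracket hx, ← rep_eq hx X,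
    ← rep_eq hx Y, ← rep_eq hx Z]
  exact curv_calc (met g a) hu (cd_rep hu X) (cd_rep hu Y) (cd_rep hu Z)

theorem IsCurv.chart (h : IsLeviCivita g cov) (hR : IsCurv cov R) (hx : x ∈ (chartAt E a).source)
    (v w z : Tan E x) : Dc E a x (R x v w z) =
      curvT (coefL g a) (chartAt E a x) (Dc E a x v) (Dc E a x w) (Dc E a x z) := by
  obtain ⟨X, rfl⟩ := ext_vec x v
  obtain ⟨Y, rfl⟩ := ext_vec x w
  obtain ⟨Z, rfl⟩ := ext_vec x z
  rw [hR, curv_chart h hx]

theorem curv_exu (h : IsLeviCivita g cov) : ∃! R : Tens E M, IsCurv cov R := by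
  have h1 : ∀ x : M, ∃ T : Tan E x →ₗ[ℝ] Tan E x →ₗ[ℝ] Tan E x →ₗ[ℝ] Tan E x, ∀ v w z,
      Dc E x x (T v w z) =
        curvT (coefL g x) (chartAt E x x) (Dc E x x v) (Dc E x x w) (Dc E x x z) := by
    intro x
    have hx := mem_chart_source E x
    let S : E →ₗ[ℝ] Tan E x := (Sc E x (chartAt E x x)).toLinearMap
    refine ⟨LinearMap.mk₂ ℝ (fun v w => S ∘ₗ (curvT (coefL g x) (chartAt E x x) (Dc E x x v)
      (Dc E x x w)).toLinearMap ∘ₗ (Dc E x x).toLinearMap) ?_ ?_ ?_ ?_, fun v w z => D_S hx _⟩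
    all_goals
      intros
      ext z
      simp
  choose T hT using h1
  have h2 : IsCurv cov T := fun X Y Z x =>
    D_inj (mem_chart_source E x) ((hT x _ _ _).trans (curv_chart h (mem_chart_source E x) X Y Z).symm)
  refine ⟨T, h2, fun R hR => funext fun x => ?_⟩
  ext v w z
  exact D_inj (mem_chart_source E x)
    ((hR.chart h (mem_chart_source E x) v w z).trans (hT x v w z).symm)

theorem riem_T (g : RMetric E M) (hu : u ∈ (chartAt E a).target) (p q r : E) :
    Riem (coefIn g a) u p q r = curvT (coefL g a) u p q r := by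
  rw [curvT_apply (met g a) hu]
  exact riem_eq (met g a) (fun _ _ _ _ => rfl) hu p q r

theorem gam_B (g : RMetric E M) (hu : u ∈ (chartAt E a).target) (p q : E) :
    Gam (coefIn g a) u p q = chrisB (coefL g a) u p q := by
  rw [chrisB_apply]
  exact gam_eq (met g a) (fun _ _ _ _ => rfl) hu p q

theorem li_iff (hx : x ∈ (chartAt E a).source) (v w : Tan E x) :
    LinearIndependent ℝ ![Dc E a x v, Dc E a x w] ↔ LinearIndependent ℝ ![v, w] := by
  have h : ![Dc E a x v, Dc E a x w] = (Dc E a x).toLinearMap ∘ ![v, w] := by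
    funext i
    fin_cases i <;> rfl
  rw [h]
  exact LinearMap.linearIndependent_iff _ (LinearMap.ker_eq_bot.2 fun _ _ e => D_inj hx e)

theorem den_pos (g : RMetric E M) (x : M) {v w : Tan E x} (h : LinearIndependent ℝ ![v, w]) :
    0 < innerAt g x v v * innerAt g x w w - innerAt g x v w ^ 2 := by
  have hw : 0 < g.inner x w w := g.pos x w (h.ne_zero 1)
  have hz : g.inner x w w • v + (-g.inner x v w) • w ≠ 0 := fun e =>
    hw.ne' (LinearIndependent.pair_iff.1 h _ _ e).1
  have h1 := g.pos x _ hz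
  simp only [map_add, map_smul, add_apply, smul_apply, smul_eq_mul] at h1
  rw [g.symm x w v] at h1
  unfold innerAt
  exact pos_of_mul_pos_left (b := g.inner x w w) (by linarith) hw.le

theorem sec_iff (h : IsLeviCivita g cov) (hR : IsCurv cov R) (hx : x ∈ (chartAt E a).source)
    {v w : Tan E x} (hl : LinearIndependent ℝ ![v, w]) : sec g R x v w < 0 ↔
      coefIn g a (chartAt E a x) (Riem (coefIn g a) (chartAt E a x) (Dc E a x v) (Dc E a x w)
        (Dc E a x w)) (Dc E a x v) < 0 := by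
  rw [riem_T g ((chartAt E a).map_source hx), ← hR.chart h hx, sec,
    div_lt_iff₀ (den_pos g x hl), zero_mul, ← G_eq hx]
  rfl

theorem neg_iff (h : IsLeviCivita g cov) (hR : IsCurv cov R) :
    NegSec g R ↔ P207F.NegCurvature g := by
  refine ⟨fun hN a u hu v w hl => ?_, fun hN x v w hl => ?_⟩
  · obtain ⟨x, hx, rfl⟩ : ∃ x ∈ (chartAt E a).source, chartAt E a x = u :=
      ⟨_, (chartAt E a).map_target hu, (chartAt E a).right_inv hu⟩
    obtain ⟨v, rfl⟩ := D_surj hx v
    obtain ⟨w, rfl⟩ := D_surj hx w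
    have hl' := (li_iff hx v w).1 hl
    exact (sec_iff h hR hx hl').1 (hN x v w hl')
  · have hx := mem_chart_source E x
    exact (sec_iff h hR hx hl).2
      (hN x _ ((chartAt E x).map_source hx) _ _ ((li_iff hx v w).2 hl))

theorem exists_bracket (X Y : Vec E M) : ∃ B : Vec E M, ∀ y, B y = mlieBracket 𝓘(ℝ, E) X Y y := by
  have : CompleteSpace E := FiniteDimensional.complete ℝ E
  have : IsManifold 𝓘(ℝ, E) (minSmoothness ℝ 2) M := by
    rw [minSmoothness_of_isRCLikeNormedField]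
    exact IsManifold.of_le (n := ∞) (by norm_cast)
  have : IsManifold 𝓘(ℝ, E) (((⊤ : ℕ∞) : ℕ∞ω) + 1) M := IsManifold.of_le (n := ∞) (by simp)
  exact ⟨⟨mlieBracket 𝓘(ℝ, E) X Y, fun y => ContMDiffAt.mlieBracket_vectorField (m := ⊤) (n := ⊤)
    (X.contMDiff y) (Y.contMDiff y) (by simp)⟩, fun _ => rfl⟩

theorem IsCurv.smooth (h : IsLeviCivita g cov) (hR : IsCurv cov R) (X Y Z : Vec E M) :
    ∃ W : Vec E M, ∀ y, W y = R y (X y) (Y y) (Z y) := by
  obtain ⟨A, hA⟩ := h.smooth Y Z
  obtain ⟨B, hB⟩ := h.smooth X Z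
  obtain ⟨C, hC⟩ := exists_bracket X Y
  obtain ⟨A', hA'⟩ := h.smooth X A
  obtain ⟨B', hB'⟩ := h.smooth Y B
  obtain ⟨C', hC'⟩ := h.smooth C Z
  refine ⟨A' - B' - C', fun y => ?_⟩
  rw [hR, ← funext hA, ← funext hB, ← hC, ← hA', ← hB', ← hC']
  rfl

/-- the components of `∇R` -/
def nabR (G : E → E →L[ℝ] E →L[ℝ] ℝ) (u w p q r : E) : E :=
  fderiv ℝ (curvT G) u w p q r + chrisB G u w (curvT G u p q r) - curvT G u (chrisB G u w p) q r
    - curvT G u p (chrisB G u w q) r - curvT G u p q (chrisB G u w r)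

theorem par_chart (h : IsLeviCivita g cov) (hR : IsCurv cov R) (hx : x ∈ (chartAt E a).source)
    (X Y Z : Vec E M) (v : Tan E x) :
    Dc E a x (nab cov v (fun y => R y (X y) (Y y) (Z y)) - (R x (nab cov v X) (Y x) (Z x)
      + R x (X x) (nab cov v Y) (Z x) + R x (X x) (Y x) (nab cov v Z))) =
      nabR (coefL g a) (chartAt E a x) (Dc E a x v) (Dc E a x (X x)) (Dc E a x (Y x))
        (Dc E a x (Z x)) := by
  have hu := (chartAt E a).map_source hx
  obtain ⟨W, hW⟩ := hR.smooth h X Y Z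
  have h1 : ∀ y ∈ (chartAt E a).source, Dc E a y (W y) =
      (fun p => curvT (coefL g a) p (rep a X p) (rep a Y p) (rep a Z p)) (chartAt E a y) :=
    fun y hy => by rw [hW, hR.chart h hy, ← rep_eq hy, ← rep_eq hy, ← rep_eq hy]
  have h2 : rep a W =ᶠ[𝓝 (chartAt E a x)]
      fun p => curvT (coefL g a) p (rep a X p) (rep a Y p) (rep a Z p) := rep_ev hu h1
  rw [← funext hW, map_sub, map_add, map_add, nab_chart h hx, h2.fderiv_eq,
    d_curv (met g a) hu (cd_rep hu X) (cd_rep hu Y) (cd_rep hu Z), hW, hR.chart h hx,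
    hR.chart h hx, hR.chart h hx, hR.chart h hx, nab_chart h hx, nab_chart h hx, nab_chart h hx,
    rep_eq hx, rep_eq hx, rep_eq hx, nabR]
  simp only [map_add, add_apply]
  abel

theorem sym_chart (g : RMetric E M) (hu : u ∈ (chartAt E a).target) (w p q r : E) :
    fderiv ℝ (fun y => Riem (coefIn g a) y p q r) u w
      + Gam (coefIn g a) u w (Riem (coefIn g a) u p q r)
      - Riem (coefIn g a) u (Gam (coefIn g a) u w p) q r
      - Riem (coefIn g a) u p (Gam (coefIn g a) u w q) r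
      - Riem (coefIn g a) u p q (Gam (coefIn g a) u w r) = nabR (coefL g a) u w p q r := by
  have e1 : (fun y => Riem (coefIn g a) y p q r) =ᶠ[𝓝 u] fun y => curvT (coefL g a) y p q r := by
    filter_upwards [(met g a).mem_nhds hu] with y hy using riem_T g hy p q r
  have e2 := d_curv (met g a) hu (contDiffAt_const (c := p)) (contDiffAt_const (c := q))
    (contDiffAt_const (c := r)) w
  simp only [fderiv_fun_const, Pi.zero_apply, zero_apply, map_zero, add_zero] at e2
  rw [e1.fderiv_eq, e2]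
  simp only [riem_T g hu, gam_B g hu, nabR]

theorem par_iff (h : IsLeviCivita g cov) (hR : IsCurv cov R) :
    Parallel cov R ↔ P207F.LocSymmetric g := by
  refine ⟨fun hP a u hu w p q r => ?_, fun hS X Y Z x v => ?_⟩
  · obtain ⟨x, hx, rfl⟩ : ∃ x ∈ (chartAt E a).source, chartAt E a x = u :=
      ⟨_, (chartAt E a).map_target hu, (chartAt E a).right_inv hu⟩
    obtain ⟨v, rfl⟩ := D_surj hx w
    obtain ⟨X, rfl⟩ := ext_chart hx p
    obtain ⟨Y, rfl⟩ := ext_chart hx q
    obtain ⟨Z, rfl⟩ := ext_chart hx r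
    rw [sym_chart g hu, ← par_chart h hR hx, hP, sub_self, map_zero]
  · have hx := mem_chart_source E x
    have hu := (chartAt E x).map_source hx
    refine sub_eq_zero.1 (D_inj hx ?_)
    rw [par_chart h hR hx, ← sym_chart g hu, hS x _ hu, map_zero]

end Vale.Agent.P207I
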