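import Vale.Agent.P207.FDefs

/-! The Levi-Civita connection, its curvature tensor and its geodesics. -/

open scoped Manifold ContDiff Topology
open Bundle Filter VectorField

noncomputable section

namespace Vale.Agent.P207I

open Vale.Agent.P255 (RMetric innerAt)

variable (E : Type) [NormedAddCommGroup E] [NormedSpace ℝ E]
  {M : Type} [TopologicalSpace M] [ChartedSpace E M]

/-- the tangent space at `x` -/
abbrev Tan (x : M) : Type := TangentSpace 𝓘(ℝ, E) x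

/-- the velocity of a curve -/
def vel (γ : ℝ → M) (t : ℝ) : Tan E (γ t) := mfderiv 𝓘(ℝ, ℝ) 𝓘(ℝ, E) γ t (1 : ℝ)

variable (M)

/-- fields of trilinear maps `(X, Y, Z) ↦ R(X, Y) Z` of the tangent spaces -/
abbrev Tens : Type := (x : M) → Tan E x →ₗ[ℝ] Tan E x →ₗ[ℝ] Tan E x →ₗ[ℝ] Tan E x

variable [IsManifold 𝓘(ℝ, E) ∞ M]

/-- connections on the tangent bundle; `cov Y x v` is `∇_v Y` at `x` -/
abbrev Conn : Type := CovariantDerivative 𝓘(ℝ, E) E (Tan E : M → Type)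

/-- smooth vector fields -/
abbrev Vec : Type := Cₛ^∞⟮𝓘(ℝ, E); E, (Tan E : M → Type)⟯

variable {E M}

/-- `∇_v Y` -/
def nab (cov : Conn E M) {x : M} (v : Tan E x) (Y : (y : M) → Tan E y) : Tan E x := cov Y x v

/-- A Levi-Civita connection of `g`: `∇_X Y` is smooth, `∇_X Y - ∇_Y X = [X, Y]` and
`X g(Y, Z) = g(∇_X Y, Z) + g(Y, ∇_X Z)`. -/
structure IsLeviCivita (g : RMetric E M) (cov : Conn E M) : Prop where
  smooth : ∀ X Y : Vec E M, ∃ Z : Vec E M, ∀ x, Z x = nab cov (X x) Y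
  torsion : ∀ (X Y : Vec E M) (x : M),
    nab cov (X x) Y - nab cov (Y x) X = mlieBracket 𝓘(ℝ, E) X Y x
  metric : ∀ (Y Z : Vec E M) (x : M) (v : Tan E x),
    mvfderiv 𝓘(ℝ, E) (fun y => innerAt g y (Y y) (Z y)) x v =
      innerAt g x (nab cov v Y) (Z x) + innerAt g x (Y x) (nab cov v Z)

/-- `R` is the curvature tensor `R(X, Y) Z = ∇_X ∇_Y Z - ∇_Y ∇_X Z - ∇_[X,Y] Z`. -/
def IsCurv (cov : Conn E M) (R : Tens E M) : Prop :=
  ∀ (X Y Z : Vec E M) (x : M), R x (X x) (Y x) (Z x) =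
    nab cov (X x) (fun y => nab cov (Y y) Z) - nab cov (Y x) (fun y => nab cov (X y) Z)
      - nab cov (mlieBracket 𝓘(ℝ, E) X Y x) Z

/-- The sectional curvature of the plane spanned by `v` and `w`. -/
def sec (g : RMetric E M) (R : Tens E M) (x : M) (v w : Tan E x) : ℝ :=
  innerAt g x (R x v w w) v / (innerAt g x v v * innerAt g x w w - innerAt g x v w ^ 2)

/-- All sectional curvatures are strictly negative. -/
def NegSec (g : RMetric E M) (R : Tens E M) : Prop :=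
  ∀ (x : M) (v w : Tan E x), LinearIndependent ℝ ![v, w] → sec g R x v w < 0

/-- `∇R = 0`: `∇_v (R(X, Y) Z) = R(∇_v X, Y) Z + R(X, ∇_v Y) Z + R(X, Y) ∇_v Z`. -/
def Parallel (cov : Conn E M) (R : Tens E M) : Prop :=
  ∀ (X Y Z : Vec E M) (x : M) (v : Tan E x), nab cov v (fun y => R y (X y) (Y y) (Z y)) =
    R x (nab cov v X) (Y x) (Z x) + R x (X x) (nab cov v Y) (Z x) + R x (X x) (Y x) (nab cov v Z)

/-- `w` is the covariant derivative `D_t V` at the time `t` of the field `V` along the curve `γ`: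
near `t` the field is `∑ c_i(s) Y_i(γ s)` with smooth vector fields `Y_i` and functions `c_i`
differentiable at `t`, and `w = ∑ c_i'(t) Y_i + c_i(t) ∇_{γ'(t)} Y_i`. -/
def HasCovDer (cov : Conn E M) (γ : ℝ → M) (V : (s : ℝ) → Tan E (γ s)) (t : ℝ)
    (w : Tan E (γ t)) : Prop :=
  ∃ (k : ℕ) (Y : Fin k → Vec E M) (c : Fin k → ℝ → ℝ) (c' : Fin k → ℝ),
    (∀ i, HasDerivAt (c i) (c' i) t) ∧ (∀ᶠ s in 𝓝 t, V s = ∑ i, c i s • Y i (γ s)) ∧
      w = ∑ i, (c' i • Y i (γ t) + c i t • nab cov (vel E γ t) (Y i))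

/-- Geodesics: differentiable curves with `D_t γ' = 0`. -/
def IsGeodesic (cov : Conn E M) (γ : ℝ → M) : Prop :=
  MDifferentiable 𝓘(ℝ, ℝ) 𝓘(ℝ, E) γ ∧ ∀ t, HasCovDer cov γ (vel E γ) t 0

end Vale.Agent.P207I
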