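import Vale.Agent.P207I27.Main
import Vale.Agent.P207L3.Defs

/-! The connection rows for the definitions of `P207L3/Defs`. -/

set_option maxSynthPendingDepth 3
set_option linter.unusedSectionVars false

open scoped Manifold ContDiff Topology
open Bundle Filter VectorField

noncomputable section

namespace Vale.Agent.P207L.C

open Vale.Agent.P255 (RMetric IsGeo)
open Vale.Agent.P207F (UT)

variable {E : Type} [NormedAddCommGroup E] [NormedSpace ℝ E] [FiniteDimensional ℝ E]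
  {M : Type} [TopologicalSpace M] [ChartedSpace E M] [IsManifold 𝓘(ℝ, E) ∞ M] [T2Space M]
  {g : RMetric E M} {D D' : Conn E M}

theorem toI (h : IsLeviCivita g D) : P207I.IsLeviCivita g D := by
  refine ⟨fun X Y => ⟨P211.nabVF D h.smooth X Y, fun _ => rfl⟩,
    fun X Y x => congrFun (h.torsion X Y) x, fun Y Z x v => ?_⟩
  obtain ⟨X, rfl⟩ := P207I.ext_vec x v
  exact h.metric X Y Z x

theorem exists_lc (g : RMetric E M) : ∃ D : Conn E M, IsLeviCivita g D := by
  let : RiemannianBundle fun p : M => TangentSpace 𝓘(ℝ, E) p := ⟨g.toRiemannianMetric⟩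
  obtain ⟨D, h⟩ := P211W.exists_lc (E := E) (M := M)
  exact ⟨D, h.smooth, fun X Y => funext fun x =>
    (CovariantDerivative.torsion_eq_zero_iff D).1 h.torsion (P211.VF.mdiff X x)
      (P211.VF.mdiff Y x), fun X Y Z x =>
    h.metric.mvfderiv_inner_eq X (P211.VF.mdiff Y x) (P211.VF.mdiff Z x)⟩

theorem lc_unique (h : IsLeviCivita g D) (h' : IsLeviCivita g D') (Y : Vec E M) : D' Y = D Y :=
  funext fun x => ContinuousLinearMap.ext fun v => P207I.lc_unique (toI h') (toI h) Y x v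

theorem curv_eq {R : P207I.Tens E M} (hR : P207I.IsCurv D R) (X Y Z : Vec E M) (x : M) :
    curv D X Y Z x = R x (X x) (Y x) (Z x) := (hR X Y Z x).symm

theorem hasCov_iff {γ : ℝ → M} {V : (t : ℝ) → Tan E (γ t)} {t : ℝ} {w : Tan E (γ t)} :
    HasCov D γ V t w ↔ P207I.HasCovDer D γ V t w := by
  refine ⟨fun ⟨k, f, Y, h1, h2, h3⟩ => ⟨k, Y, f, _, fun i => (h1 i).hasDerivAt, h2, h3⟩,
    fun ⟨k, Y, c, c', h1, h2, h3⟩ => ⟨k, c, Y, fun i => (h1 i).differentiableAt, h2, ?_⟩⟩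
  rw [h3]
  exact Finset.sum_congr rfl fun i _ => by rw [(h1 i).deriv]; rfl

theorem sound (h : IsLeviCivita g D) : Sound D := by
  obtain ⟨R, hR, -⟩ := P207I.curv_exu (toI h)
  refine ⟨P207I.ext_vec, fun X X' Y Y' Z Z' x h1 h2 h3 => ?_, fun γ V t w w' hγ h1 h2 =>
    P207I.covDer_unique (toI h) hγ (hasCov_iff.1 h1) (hasCov_iff.1 h2)⟩
  rw [curv_eq hR, curv_eq hR, h1, h2, h3]

theorem neg_iff (h : IsLeviCivita g D) : NegCurved g D ↔ P207F.NegCurvature g := by
  obtain ⟨R, hR, -⟩ := P207I.curv_exu (toI h)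
  have h1 : ∀ (X Y : Vec E M) (x : M), sec g D X Y x = P207I.sec g R x (X x) (Y x) :=
    fun X Y x => by rw [sec, curv_eq hR, P207I.sec]
  rw [← P207I.neg_iff (toI h) hR]
  refine ⟨fun hN x v w hl => ?_, fun hN X Y x hl => (h1 X Y x).trans_lt (hN x _ _ hl)⟩
  obtain ⟨X, rfl⟩ := P207I.ext_vec x v
  obtain ⟨Y, rfl⟩ := P207I.ext_vec x w
  exact (h1 X Y x).symm.trans_lt (hN X Y x hl)

theorem par_iff (h : IsLeviCivita g D) : Parallel D ↔ P207F.LocSymmetric g := by
  obtain ⟨R, hR, -⟩ := P207I.curv_exu (toI h)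
  have h1 : ∀ (U X Y Z : Vec E M) (x : M), (nab D U (curv D X Y Z) - curv D (nab D U X) Y Z
      - curv D X (nab D U Y) Z - curv D X Y (nab D U Z)) x =
      P207I.nab D (U x) (fun y => R y (X y) (Y y) (Z y)) - (R x (P207I.nab D (U x) X) (Y x) (Z x)
        + R x (X x) (P207I.nab D (U x) Y) (Z x) + R x (X x) (Y x) (P207I.nab D (U x) Z)) := by
    intro U X Y Z x
    have e1 := curv_eq hR (P211.nabVF D h.smooth U X) Y Z x
    have e2 := curv_eq hR X (P211.nabVF D h.smooth U Y) Z x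
    have e3 := curv_eq hR X Y (P211.nabVF D h.smooth U Z) x
    rw [← funext (curv_eq hR X Y Z), ← sub_sub, ← sub_sub]
    exact congrArg₂ _ (congrArg₂ _ (congrArg₂ _ rfl e1) e2) e3
  rw [← P207I.par_iff (toI h) hR]
  refine ⟨fun hP X Y Z x v => ?_, fun hP U X Y Z => funext fun x => ?_⟩
  · obtain ⟨U, rfl⟩ := P207I.ext_vec x v
    exact sub_eq_zero.1 ((h1 U X Y Z x).symm.trans (congrFun (hP U X Y Z) x))
  · exact (h1 U X Y Z x).trans (sub_eq_zero.2 (hP X Y Z x (U x)))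

theorem geo_iff (h : IsLeviCivita g D) (γ : ℝ → M) : IsGeodesic D γ ↔ IsGeo g γ :=
  (and_congr_right fun _ => forall_congr' fun _ => hasCov_iff).trans (P207I.geo_iff (toI h) γ)

theorem flow_iff (h : IsLeviCivita g D) (φ : ℝ → UT g → UT g) :
    IsFlow g D φ ↔ P207F.IsGeoFlow g φ :=
  forall_congr' fun _ => and_congr_right fun _ => and_congr_left fun _ => geo_iff h _

end Vale.Agent.P207L.C
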