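import Vale.Agent.P207I27.Curv

/-! The covariant derivative along curves and the geodesics in a chart. -/

set_option maxSynthPendingDepth 3
set_option linter.unusedSectionVars false

open scoped Manifold ContDiff Topology
open Bundle Filter VectorField IsManifold

noncomputable section

namespace Vale.Agent.P207I

open Vale.Agent.P255 Vale.Agent.P211Z

variable {E : Type} [NormedAddCommGroup E] [NormedSpace ℝ E] [FiniteDimensional ℝ E]
  {M : Type} [TopologicalSpace M] [ChartedSpace E M] [IsManifold 𝓘(ℝ, E) ∞ M] [T2Space M]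
  {a : M} {g : RMetric E M} {cov : Conn E M} {γ : ℝ → M} {V : (s : ℝ) → Tan E (γ s)} {t : ℝ}

theorem hasDerivAt_curve (hγ : MDifferentiableAt 𝓘(ℝ, ℝ) 𝓘(ℝ, E) γ t)
    (ht : γ t ∈ (chartAt E a).source) :
    HasDerivAt (curveIn (E := E) γ a) (Dc E a (γ t) (vel E γ t)) t := by
  have h1 := ((mdc a).mdifferentiableAt ht).hasMFDerivAt.comp t hγ.hasMFDerivAt
  have h2 : HasFDerivAt (curveIn (E := E) γ a)
      ((Dc E a (γ t)).comp (mfderiv 𝓘(ℝ, ℝ) 𝓘(ℝ, E) γ t) : ℝ →L[ℝ] E) t :=
    hasMFDerivAt_iff_hasFDerivAt.1 h1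
  exact h2.hasDerivAt

theorem ev_source (hγ : ContinuousAt γ t) (ht : γ t ∈ (chartAt E a).source) :
    ∀ᶠ s in 𝓝 t, γ s ∈ (chartAt E a).source :=
  hγ.eventually ((chartAt E a).open_source.mem_nhds ht)

theorem HasCovDer.chart (h : IsLeviCivita g cov) (hγ : MDifferentiableAt 𝓘(ℝ, ℝ) 𝓘(ℝ, E) γ t)
    (ht : γ t ∈ (chartAt E a).source) {w : Tan E (γ t)} (hw : HasCovDer cov γ V t w) :
    HasDerivAt (fun s => Dc E a (γ s) (V s)) (Dc E a (γ t) w - chrisB (coefL g a)
      (chartAt E a (γ t)) (Dc E a (γ t) (vel E γ t)) (Dc E a (γ t) (V t))) t := by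
  obtain ⟨k, Y, c, c', hc, hV, rfl⟩ := hw
  have hu := (chartAt E a).map_source ht
  have h1 : ∀ i, HasDerivAt (fun s => c i s • rep a (Y i) (curveIn γ a s))
      (c i t • fderiv ℝ (rep a (Y i)) (chartAt E a (γ t)) (Dc E a (γ t) (vel E γ t))
        + c' i • rep a (Y i) (chartAt E a (γ t))) t := fun i =>
    (hc i).smul (HasFDerivAt.comp_hasDerivAt (f := curveIn γ a) t (hd_rep hu (Y i))
      (hasDerivAt_curve hγ ht))
  have h2 := HasDerivAt.fun_sum fun i (_ : i ∈ Finset.univ) => h1 i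
  refine (h2.congr_of_eventuallyEq ?_).congr_deriv ?_
  · filter_upwards [hV, ev_source hγ.continuousAt ht] with s hs hs'
    rw [hs, map_sum]
    exact Finset.sum_congr rfl fun i _ => by rw [map_smul, ← rep_eq hs']; rfl
  · rw [hV.self_of_nhds, map_sum, map_sum, map_sum, ← Finset.sum_sub_distrib]
    refine Finset.sum_congr rfl fun i _ => ?_
    rw [map_add, map_smul, map_smul, map_smul, map_smul, nab_chart h ht, rep_eq ht, smul_add]
    abel

theorem covDer_unique (h : IsLeviCivita g cov) (hγ : MDifferentiableAt 𝓘(ℝ, ℝ) 𝓘(ℝ, E) γ t)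
    {w w' : Tan E (γ t)} (hw : HasCovDer cov γ V t w) (hw' : HasCovDer cov γ V t w') : w = w' :=
  D_inj (mem_chart_source E _) (sub_left_injective
    ((hw.chart h hγ (mem_chart_source E _)).unique (hw'.chart h hγ (mem_chart_source E _))))

theorem exists_coord {x : M} (hx : x ∈ (chartAt E a).source) (v : E) :
    ∃ Y : Vec E M, ∀ᶠ y in 𝓝 x, Dc E a y (Y y) = v := by
  have h0 : ∀ z : E, Sm (fun z : E => (v : TangentSpace 𝓘(ℝ, E) z)) z :=
    (contMDiff_vectorSpace_iff_contDiff (V := fun z : E => (v : TangentSpace 𝓘(ℝ, E) z))).2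
      contDiff_const
  obtain ⟨Y, hY⟩ := P211.cut_section (E := E) ((chartAt E a).open_source.mem_nhds hx)
    fun y hy => (Sm.pull (ld hy) (h0 _)).contMDiffWithinAt
  refine ⟨Y, ?_⟩
  filter_upwards [hY, (chartAt E a).open_source.mem_nhds hx] with y h1 h2
  rw [h1]
  exact dm_pull (ld h2) _

theorem exists_covDer (hγ : ContinuousAt γ t) (ht : γ t ∈ (chartAt E a).source)
    (hV : DifferentiableAt ℝ (fun s => Dc E a (γ s) (V s)) t) : ∃ w, HasCovDer cov γ V t w := by
  let b := Module.finBasis ℝ E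
  choose Y hY using fun i => exists_coord ht (b i)
  have hc : ∀ i, DifferentiableAt ℝ (fun s => b.repr (Dc E a (γ s) (V s)) i) t := fun i =>
    (LinearMap.toContinuousLinearMap (b.coord i)).differentiableAt.comp t hV
  refine ⟨_, _, Y, fun i s => b.repr (Dc E a (γ s) (V s)) i, _, fun i => (hc i).hasDerivAt, ?_, rfl⟩
  filter_upwards [ev_source hγ ht, hγ.eventually (eventually_all.2 hY)] with s hs h1
  refine D_inj hs ?_
  rw [map_sum]
  simp only [map_smul, h1]
  exact (b.sum_repr _).symm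

theorem geo_iff (h : IsLeviCivita g cov) (γ : ℝ → M) : IsGeodesic cov γ ↔ IsGeo g γ := by
  have key : MDifferentiable 𝓘(ℝ, ℝ) 𝓘(ℝ, E) γ → ∀ a t, γ t ∈ (chartAt E a).source →
      deriv (curveIn (E := E) γ a) =ᶠ[𝓝 t] fun s => Dc E a (γ s) (vel E γ s) := by
    intro hγ a t ht
    filter_upwards [ev_source (hγ t).continuousAt ht] with s hs
    exact (hasDerivAt_curve (hγ s) hs).deriv
  constructor
  · rintro ⟨hγ, hg⟩
    refine ⟨hγ.continuous, fun a t ht => ?_⟩
    have h1 := ((hg t).chart h (hγ t) ht).congr_of_eventuallyEq (key hγ a t ht)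
    refine ⟨(hasDerivAt_curve (hγ t) ht).differentiableAt, h1.differentiableAt, ?_⟩
    rw [CovDer, h1.deriv, (key hγ a t ht).eq_of_nhds, map_zero, zero_sub, curveIn,
      gam_B g ((chartAt E a).map_source ht), neg_add_cancel]
  · rintro ⟨hc, hg⟩
    have hγ : MDifferentiable 𝓘(ℝ, ℝ) 𝓘(ℝ, E) γ := by
      intro t
      have ht := mem_chart_source E (γ t)
      have h1 := MDifferentiableAt.comp t
        ((mdc (γ t)).mdifferentiableAt_symm ((chartAt E (γ t)).map_source ht))
        (hg _ t ht).1.mdifferentiableAt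
      refine h1.congr_of_eventuallyEq ?_
      filter_upwards [ev_source hc.continuousAt ht] with s hs
      exact ((chartAt E (γ t)).left_inv hs).symm
    refine ⟨hγ, fun t => ?_⟩
    have ht := mem_chart_source E (γ t)
    obtain ⟨-, h2, h3⟩ := hg _ t ht
    obtain ⟨w, hw⟩ := exists_covDer (cov := cov) hc.continuousAt ht
      (h2.congr_of_eventuallyEq (key hγ _ t ht).symm)
    have h1 := (hw.chart h (hγ t) ht).congr_of_eventuallyEq (key hγ _ t ht)
    rw [CovDer, h1.deriv, (key hγ _ t ht).eq_of_nhds, curveIn,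
      gam_B g ((chartAt E (γ t)).map_source ht), sub_add_cancel] at h3
    rwa [D_inj ht (h3.trans (map_zero _).symm)] at hw

end Vale.Agent.P207I
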