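import Vale.Agent.P207L3.Defs
import Mathlib.Dynamics.Flow

/-! P207: the statement, with short terms. -/

open scoped Manifold ContDiff ENNReal Topology
open MeasureTheory Filter VectorField

noncomputable section

namespace Vale.Agent.P207S

open Vale.Agent.P255 (RMetric innerAt)
open Vale.Agent.P207F (UT IsRiemVol)
open Vale.Agent.P207L (Tan Fld Vec Conn vel nab curv sec Sph RotInv IsLiou IsCover IsCoverRate hTop)
open Vale.Agent.P108L (IsPartition IsRate hKS)

/-- The limits which define the entropies of `T` exist. -/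
def Limits {X : Type} [TopologicalSpace X] [MeasurableSpace X] (m : Measure X) (T : X → X) : Prop :=
  (∀ (d : ℕ) (P : Fin d → Set X), IsPartition P → ∃ h, IsRate m T P h) ∧
    ∀ (ι : Type) (U : ι → Set X), IsCover U → ∃ h, IsCoverRate T U h

variable {E : Type} [NormedAddCommGroup E] [NormedSpace ℝ E] {M : Type} [TopologicalSpace M]
  [ChartedSpace E M]

/-- the linear combination `∑ cᵢ vᵢ` of tangent vectors -/
def comb {x : M} {k : ℕ} (c : Fin k → ℝ) (v : Fin k → Tan E x) : Tan E x := ∑ i, c i • v i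

variable [IsManifold 𝓘(ℝ, E) ∞ M]

/-- a smooth vector field as a vector field -/
def fld (X : Vec E M) : Fld E M := X

/-- `∇_v Y` -/
def nabAt (D : Conn E M) {x : M} (v : Tan E x) (Y : Fld E M) : Tan E x := D Y x v

/-- `∇_X Y - ∇_Y X = [X, Y]` -/
def TorsionFree (D : Conn E M) : Prop :=
  ∀ X Y : Vec E M,
    nab D (fld X) (fld Y) - nab D (fld Y) (fld X) = mlieBracket 𝓘(ℝ, E) (fld X) (fld Y)

/-- `X g(Y, Z) = g(∇_X Y, Z) + g(Y, ∇_X Z)` -/
def Compatible (g : RMetric E M) (D : Conn E M) : Prop :=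
  ∀ (X Y Z : Vec E M) (x : M),
    mvfderiv 𝓘(ℝ, E) (fun y => innerAt g y (fld Y y) (fld Z y)) x (fld X x) =
      innerAt g x (nab D (fld X) (fld Y) x) (fld Z x) + innerAt g x (fld Y x) (nab D (fld X) (fld Z) x)

/-- A Levi-Civita connection of `g`: smooth, torsion free and compatible with `g`. -/
def IsLeviCivita (g : RMetric E M) (D : Conn E M) : Prop :=
  D.ContMDiffCovariantDerivative ∞ ∧ TorsionFree D ∧ Compatible g D

/-- All sectional curvatures are strictly negative. -/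
def NegCurved (g : RMetric E M) (D : Conn E M) : Prop :=
  ∀ (X Y : Vec E M) (x : M), LinearIndependent ℝ ![fld X x, fld Y x] → sec g D (fld X) (fld Y) x < 0

/-- `(∇_U R)(X, Y) Z` -/
def nabCurv (D : Conn E M) (U X Y Z : Fld E M) : Fld E M :=
  nab D U (curv D X Y Z) - curv D (nab D U X) Y Z - curv D X (nab D U Y) Z - curv D X Y (nab D U Z)

/-- `∇R = 0`. -/
def Parallel (D : Conn E M) : Prop :=
  ∀ U X Y Z : Vec E M, nabCurv D (fld U) (fld X) (fld Y) (fld Z) = 0

/-- `w` is the covariant derivative at time `t` of the field `V` along `γ`: near `t` the field is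
`∑ fᵢ Yᵢ ∘ γ` with smooth vector fields `Yᵢ`, and `w = ∑ fᵢ' Yᵢ + ∑ fᵢ ∇_γ' Yᵢ`. -/
def HasCov (D : Conn E M) (γ : ℝ → M) (V : (t : ℝ) → Tan E (γ t)) (t : ℝ) (w : Tan E (γ t)) :
    Prop :=
  ∃ (k : ℕ) (f : Fin k → ℝ → ℝ) (Y : Fin k → Vec E M), (∀ i, DifferentiableAt ℝ (f i) t) ∧
    (∀ᶠ s in 𝓝 t, V s = comb (fun i => f i s) fun i => fld (Y i) (γ s)) ∧
    w = comb (fun i => deriv (f i) t) (fun i => fld (Y i) (γ t)) +
      comb (fun i => f i t) fun i => nabAt D (vel E γ t) (fld (Y i))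

/-- The Levi-Civita connection is unique, tangent vectors extend to smooth fields, the curvature
is a tensor, and the covariant derivative along a curve is unique. -/
structure Sound (g : RMetric E M) (D : Conn E M) : Prop where
  lc : ∀ D', IsLeviCivita g D' → ∀ (Y : Vec E M) (x : M) (v : Tan E x),
    nabAt D' v (fld Y) = nabAt D v (fld Y)
  extend : ∀ (x : M) (v : Tan E x), ∃ X : Vec E M, fld X x = v
  tensor : ∀ (X X' Y Y' Z Z' : Vec E M) (x : M), fld X x = fld X' x → fld Y x = fld Y' x →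
    fld Z x = fld Z' x → curv D (fld X) (fld Y) (fld Z) x = curv D (fld X') (fld Y') (fld Z') x
  unique : ∀ (γ : ℝ → M) (V : (t : ℝ) → Tan E (γ t)) (t : ℝ) (w w' : Tan E (γ t)),
    MDifferentiableAt 𝓘(ℝ, ℝ) 𝓘(ℝ, E) γ t → HasCov D γ V t w → HasCov D γ V t w' → w = w'

/-- Geodesics: `∇_γ' γ' = 0`. -/
def IsGeodesic (D : Conn E M) (γ : ℝ → M) : Prop :=
  MDifferentiable 𝓘(ℝ, ℝ) 𝓘(ℝ, E) γ ∧ ∀ t, HasCov D γ (vel E γ) t 0

/-- `φ t p` is the velocity at time `t` of the geodesic with initial velocity `p`. -/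
def IsFlow (g : RMetric E M) (D : Conn E M) (φ : ℝ → UT g → UT g) : Prop :=
  ∀ p, φ 0 p = p ∧ IsGeodesic D (fun t => (φ t p).pt) ∧
    ∀ t, vel E (fun s => (φ s p).pt) t = (φ t p).vec

variable [MeasureSpace E] [MeasurableSpace M] {n : ℕ}

/-- `φ`, `μ`, `σ x`, `m` are the only geodesic flow, Riemannian volume, rotation-invariant
probability measure on `S_x M` and normalized Liouville measure; `φ t` preserves `m`. -/
structure Objects (b : Fin n → E) (g : RMetric E M) (D : Conn E M) (φ : ℝ → UT g → UT g)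
    (μ : Measure M) (σ : (x : M) → Measure (Sph g x)) (m : Measure (UT g)) : Prop where
  flow : ∀ φ', IsFlow g D φ' ↔ φ' = φ
  vol : ∀ μ', IsRiemVol b g μ' ↔ μ' = μ
  sph : ∀ x σ', RotInv g x σ' ↔ σ' = σ x
  liou : ∀ m', IsLiou g μ σ m' ↔ m' = m
  inv : ∀ t, MeasurePreserving (φ t) m m

/-- Katok's conjecture for `g`, with the existence and uniqueness of the objects. -/
def Katok (b : Fin n → E) (g : RMetric E M) : Prop :=
  (∃ D, IsLeviCivita g D) ∧ ∀ D, IsLeviCivita g D → Sound g D ∧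
    ∃ (φ : Flow ℝ (UT g)) (μ : Measure M) (σ : (x : M) → Measure (Sph g x)) (m : Measure (UT g)),
      Objects b g D φ.toFun μ σ m ∧ Limits m (φ.toFun 1) ∧
      (NegCurved g D → hKS m (φ.toFun 1) ≤ hTop (φ.toFun 1) ∧
        (hKS m (φ.toFun 1) = hTop (φ.toFun 1) ↔ Parallel D))

end Vale.Agent.P207S
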